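import Vale.Agent.P181.RG.Defs

/-!
# P181, RG [EXT]: a partial assignment extends to exact multiplicities (helper460)
-/

set_option autoImplicit false

namespace Vale.Agent.P181.RG.H460

open Finset

/-- **[EXT]** -/
theorem ext : ExtRG := by
  intro S L _ _ _ _ c S₀ g₀ hc hle
  classical
  have h1 : ∑ x, (S₀.filter fun s => g₀ s = x).card = S₀.card :=
    (Finset.card_eq_sum_card_fiberwise (f := g₀) (t := univ) fun _ _ => mem_univ _).symm
  have h2 : ∑ x, (c x - (S₀.filter fun s => g₀ s = x).card) + S₀.card = Fintype.card S := by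
    rw [← h1, ← Finset.sum_add_distrib, ← hc]
    exact Finset.sum_congr rfl fun x _ => Nat.sub_add_cancel (hle x)
  have h3 : Fintype.card (Σ x : L, Fin (c x - (S₀.filter fun s => g₀ s = x).card)) =
      Fintype.card {s : S // s ∉ S₀} := by
    rw [Fintype.card_sigma, Fintype.card_subtype_compl, Fintype.card_coe]
    simp only [Fintype.card_fin]
    omega
  let e := Fintype.equivOfCardEq h3
  refine ⟨fun s => if h : s ∈ S₀ then g₀ s else (e.symm ⟨s, h⟩).1, fun s hs => dif_pos hs,
    fun x => ?_⟩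
  have h4 : (univ.filter fun s => (if h : s ∈ S₀ then g₀ s else (e.symm ⟨s, h⟩).1) = x) =
      (S₀.filter fun s => g₀ s = x) ∪
        (univ : Finset (Fin (c x - (S₀.filter fun s => g₀ s = x).card))).image
          fun i => ((e ⟨x, i⟩ : {s : S // s ∉ S₀}) : S) := by
    ext s
    rw [mem_filter, mem_union, mem_filter, mem_image]
    constructor
    · rintro ⟨-, h⟩
      by_cases hs : s ∈ S₀
      · rw [dif_pos hs] at h
        exact Or.inl ⟨hs, h⟩
      · rw [dif_neg hs] at h
        right
        obtain ⟨y, i, hy⟩ : ∃ y i, e.symm ⟨s, hs⟩ = ⟨y, i⟩ := ⟨_, _, rfl⟩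
        rw [hy] at h
        obtain rfl : y = x := h
        refine ⟨i, mem_univ _, ?_⟩
        rw [← hy, Equiv.apply_symm_apply]
    · rintro (⟨hs, h⟩ | ⟨i, -, h⟩)
      · exact ⟨mem_univ _, by rw [dif_pos hs, h]⟩
      · subst h
        refine ⟨mem_univ _, ?_⟩
        rw [dif_neg (e ⟨x, i⟩).2]
        simp
  rw [h4, card_union_of_disjoint, card_image_of_injective, card_univ, Fintype.card_fin]
  · exact Nat.add_sub_cancel' (hle x)
  · intro i j h
    have h5 := e.injective (Subtype.ext h)
    exact eq_of_heq (Sigma.mk.inj h5).2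
  · rw [Finset.disjoint_left]
    intro s hs hs'
    obtain ⟨i, -, rfl⟩ := mem_image.1 hs'
    exact (e ⟨x, i⟩).2 (mem_filter.1 hs).1

end Vale.Agent.P181.RG.H460
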