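import Vale.Agent.P181.RG.Defs

/-!
# P181, RG [PEAK]: only the classes are independent sets of their sizes (helper460)
-/

set_option autoImplicit false

namespace Vale.Agent.P181.RG.H460

open Finset

theorem own_unique {u m : ℕ} {f : Fin m → ℕ} {r r' : Fin m} {x : Lt u m f} (h : Own r x)
    (h' : Own r' x) : r = r' := by
  obtain ⟨i, rfl⟩ := h
  obtain ⟨j, h⟩ := h'
  exact congrArg Sigma.fst (Sum.inr.inj h)

theorem card_own {u m : ℕ} {f : Fin m → ℕ} (r : Fin m) (σ : Equiv.Perm (Lt u m f))
    [DecidablePred fun x : Lt u m f => Own r (σ x)] [DecidablePred fun x : Lt u m f => Own r x] :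
    (univ.filter fun i : Fin u => Own r (σ (Sum.inl i))).card +
      (univ.filter fun x : Σ r : Fin m, Fin (f r) => Own r (σ (Sum.inr x))).card = f r := by
  classical
  rw [card_filter, card_filter]
  have h1 := Fintype.sum_sum_type fun x : Lt u m f => if Own r (σ x) then 1 else 0
  rw [← h1]
  have h2 := Equiv.sum_comp σ fun y : Lt u m f => if Own r y then 1 else 0
  rw [h2, Fintype.sum_sum_type, Fintype.sum_sigma]
  have h3 : ∀ i : Fin u, (if Own r (Sum.inl i : Lt u m f) then 1 else 0) = 0 := by
    intro i
    rw [if_neg]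
    rintro ⟨j, h⟩
    cases h
  have h4 : ∀ r' : Fin m, ∑ i : Fin (f r'), (if Own r (Sum.inr ⟨r', i⟩ : Lt u m f) then 1 else 0) =
      if r = r' then f r else 0 := by
    intro r'
    by_cases h : r = r'
    · subst h
      rw [if_pos rfl, Finset.sum_congr rfl fun i _ => if_pos ⟨i, rfl⟩]
      simp
    · rw [if_neg h]
      refine Finset.sum_eq_zero fun i _ => if_neg ?_
      intro h'
      exact h (own_unique h' ⟨i, rfl⟩)
  simp only [h3, h4, Finset.sum_const_zero, zero_add, Finset.sum_ite_eq, mem_univ, if_true]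

/-- **[PEAK]** -/
theorem peak : PeakRG := by
  intro u m f₀ T g grp N h1 h2 hsym hcl hfr hA σ hσ
  classical
  -- two letters of `I r` are not related
  have hind : ∀ (r : Fin m) (x y), Own r (σ x) → Own r (σ y) → ¬ N x y := fun r x y hx hy h =>
    hσ x y h ⟨r, hx, hy⟩
  -- no free letter in `I r`
  have ha : ∀ (r : Fin m) (i : Fin u), ¬ Own r (σ (Sum.inl i)) := by
    intro r i hi
    have hc := card_own r σ
    have hr := r.2
    have hF : (univ.filter fun i : Fin u => Own r (σ (Sum.inl i))).card ≤ g := by
      have := Finset.card_le_card_of_injOn (s := univ.filter fun i : Fin u => Own r (σ (Sum.inl i)))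
        (t := (univ : Finset (Fin g))) grp (fun _ _ => mem_coe.2 (mem_univ _)) (by
          intro i hi j hj h
          by_contra hij
          exact hind r _ _ (mem_filter.1 (mem_coe.1 hi)).2 (mem_filter.1 (mem_coe.1 hj)).2
            (hfr i j hij h))
      rwa [card_univ, Fintype.card_fin] at this
    have hC : (univ.filter fun x : Σ r : Fin m, Fin (f₀ - r) => Own r (σ (Sum.inr x))).card ≤
        f₀ - T := by
      rcases (univ.filter fun x : Σ r : Fin m, Fin (f₀ - r) =>
        Own r (σ (Sum.inr x))).eq_empty_or_nonempty with h | ⟨⟨r', j'⟩, h⟩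
      · rw [h, card_empty]
        exact Nat.zero_le _
      · obtain ⟨A, hAc, hA'⟩ := hA i r'
        have h3 : (univ.filter fun x : Σ r : Fin m, Fin (f₀ - r) => Own r (σ (Sum.inr x))) ⊆
            Aᶜ.image fun j => (⟨r', j⟩ : Σ r : Fin m, Fin (f₀ - r)) := by
          rintro ⟨r₁, j₁⟩ hx
          have h4 := (mem_filter.1 hx).2
          have h5 : r₁ = r' := by
            by_contra hne
            exact hind r _ _ h4 (mem_filter.1 h).2 (hcl ⟨r₁, j₁⟩ ⟨r', j'⟩ hne)
          subst h5
          refine mem_image.2 ⟨j₁, mem_compl.2 fun hj => ?_, rfl⟩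
          exact hind r _ _ hi h4 (hA' _ hj)
        have h6 := (card_le_card h3).trans card_image_le
        rw [card_compl, Fintype.card_fin, hAc] at h6
        omega
    omega
  have key : ∀ (n : ℕ) (r : Fin m), (r : ℕ) = n → ∀ i : Fin (f₀ - r),
      Own r (σ (Sum.inr ⟨r, i⟩)) := by
    intro n
    induction n using Nat.strong_induction_on with
    | _ n ih =>
      intro r hrn i
      have hr := r.2
      have hc := card_own r σ
      have h0 : (univ.filter fun i : Fin u => Own r (σ (Sum.inl i))) = ∅ :=
        filter_eq_empty_iff.2 fun i _ => ha r i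
      rw [h0, card_empty, zero_add] at hc
      have hne : (univ.filter fun x : Σ r : Fin m, Fin (f₀ - r) =>
          Own r (σ (Sum.inr x))).Nonempty := by
        rw [← card_pos, hc]
        omega
      obtain ⟨⟨r', j'⟩, hj'⟩ := hne
      have hj := (mem_filter.1 hj').2
      have hsub : (univ.filter fun x : Σ r : Fin m, Fin (f₀ - r) => Own r (σ (Sum.inr x))) ⊆
          univ.image fun j => (⟨r', j⟩ : Σ r : Fin m, Fin (f₀ - r)) := by
        rintro ⟨r₁, j₁⟩ hx
        have h4 := (mem_filter.1 hx).2
        have h5 : r₁ = r' := by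
          by_contra hne
          exact hind r _ _ h4 hj (hcl ⟨r₁, j₁⟩ ⟨r', j'⟩ hne)
        subst h5
        exact mem_image.2 ⟨j₁, mem_univ _, rfl⟩
      have hcr : (univ.image fun j => (⟨r', j⟩ : Σ r : Fin m, Fin (f₀ - r))).card = f₀ - r' := by
        rw [card_image_of_injective _ fun x y h => eq_of_heq (Sigma.mk.inj h).2, card_univ,
          Fintype.card_fin]
      have h7 := card_le_card hsub
      rw [hc, hcr] at h7
      have h8 : ¬ (r' : ℕ) < r := by
        intro hlt
        have h9 := ih r' (hrn ▸ hlt) r' rfl j'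
        have h10 := own_unique hj h9
        rw [h10] at hlt
        exact lt_irrefl _ hlt
      have h11 : r' = r := Fin.ext (by omega)
      subst h11
      have h12 := eq_of_subset_of_card_le hsub (by rw [hcr, hc])
      have h13 : (⟨r', i⟩ : Σ r : Fin m, Fin (f₀ - r)) ∈
          univ.filter fun x : Σ r : Fin m, Fin (f₀ - r) => Own r' (σ (Sum.inr x)) := by
        rw [h12]
        exact mem_image.2 ⟨i, mem_univ _, rfl⟩
      exact (mem_filter.1 h13).2
  rintro ⟨r, i⟩
  exact key r r rfl i

end Vale.Agent.P181.RG.H460
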